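import Mathlib

/-!
Potential functions for the dyadic triangular Hilbert form (P075, Q2).
-/

namespace H19Tri
open Matrix MeasureTheory Set

section defs
variable {n : Type*} [Fintype n] [DecidableEq n]

/-- `phi X = X (1+X)⁻¹ = 1 - (1+X)⁻¹`. -/
noncomputable def phi (X : Matrix n n ℝ) : Matrix n n ℝ := 1 - (1 + X)⁻¹

noncomputable def q1 (X Y : Matrix n n ℝ) : ℝ := (phi X * phi Y).trace

noncomputable def t1 (X : Matrix n n ℝ) : ℝ := (X * phi X).trace

noncomputable def p1 (X Y : Matrix n n ℝ) : ℝ :=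
  (phi X * (1 - phi X) * phi Y).trace + (phi X * phi Y * (1 - phi Y)).trace

/-- integrated pair functional; for psd `X, Y` with eigenvalues `x², y²` it is
`∑ (π/2) x² y² /(x+y) ⟨e,f⟩²`. -/
noncomputable def qI (X Y : Matrix n n ℝ) : ℝ :=
  ∫ s in Ioi (0:ℝ), s ^ 2 * q1 ((s ^ 2)⁻¹ • X) ((s ^ 2)⁻¹ • Y)

/-- integrated trace functional; for psd `X` it is `(π/2) tr X^{3/2}`. -/
noncomputable def tI (X : Matrix n n ℝ) : ℝ :=
  ∫ s in Ioi (0:ℝ), s ^ 2 * t1 ((s ^ 2)⁻¹ • X)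

noncomputable def SF (A : Matrix n n ℝ) : ℝ := tI (Aᵀ * A)

noncomputable def QF (A B : Matrix n n ℝ) : ℝ := qI (Aᵀ * A) (B * Bᵀ)

/-- The potential. -/
noncomputable def Phi (A B C : Matrix n n ℝ) : ℝ :=
  1152 * (SF A + SF B + SF C) + 32 * (QF A B + QF B C + QF C A)

end defs

end H19Tri
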