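import Vale.Agent.H19.Tri.Defs

/-!
Discrete model: cells, block matrices, the discrete dyadic triangular form.
-/

namespace H19Tri
open Matrix MeasureTheory Set

/-- index type of a cell of side `2^r` -/
def Idx : ℕ → Type
  | 0 => Unit
  | r + 1 => Idx r ⊕ Idx r

instance instFintypeIdx : (r : ℕ) → Fintype (Idx r)
  | 0 => inferInstanceAs (Fintype Unit)
  | r + 1 => @instFintypeSum (Idx r) (Idx r) (instFintypeIdx r) (instFintypeIdx r)

instance instDecEqIdx : (r : ℕ) → DecidableEq (Idx r)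
  | 0 => inferInstanceAs (DecidableEq Unit)
  | r + 1 => @instDecidableEqSum (Idx r) (Idx r) (instDecEqIdx r) (instDecEqIdx r)

/-- matrix of `f` restricted to the cell of level `r` with indices `(a, b)` -/
def cell (f : ℕ → ℕ → ℝ) : (r : ℕ) → ℕ → ℕ → Matrix (Idx r) (Idx r) ℝ
  | 0, a, b => fun _ _ => f a b
  | r + 1, a, b => fromBlocks (cell f r (2 * a) (2 * b)) (cell f r (2 * a) (2 * b + 1))
      (cell f r (2 * a + 1) (2 * b)) (cell f r (2 * a + 1) (2 * b + 1))

/-- the sign matrix on `n ⊕ n` -/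
def Jm (n : Type*) [DecidableEq n] : Matrix (n ⊕ n) (n ⊕ n) ℝ := fromBlocks 1 0 0 (-1)

/-- sign of the position `i < 2^r` inside a cell of level `r`: `+1` on the left half -/
def sg (r i : ℕ) : ℝ := if 2 * i < 2 ^ r then 1 else -1

/-- the discrete local form on the cell `(a, b, a ^^^ b)` of level `r` -/
noncomputable def Lx (f g h : ℕ → ℕ → ℝ) (r a b : ℕ) : ℝ :=
  ((2:ℝ) ^ r)⁻¹ * ∑ i ∈ Finset.range (2 ^ r), ∑ j ∈ Finset.range (2 ^ r),
    ∑ l ∈ Finset.range (2 ^ r),
      f (2 ^ r * a + i) (2 ^ r * b + j) * g (2 ^ r * b + j) (2 ^ r * (a ^^^ b) + l) *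
        h (2 ^ r * (a ^^^ b) + l) (2 ^ r * a + i) * (sg r i * sg r j * sg r l)

end H19Tri
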